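import Mathlib

/-! P319, block S2: the numeric inequality of the assembly of CORE. -/

namespace Vale.Agent.P319.S2.H92

open Real

/-- powers of a large number -/
theorem pw {a : ℝ} (ha : 1024 ≤ a) {c : ℝ} (hc : c ≤ a) {m n : ℕ} (h : m + 1 ≤ n) :
    c * a ^ m ≤ a ^ n := by
  have ha0 : 0 < a := by linarith
  calc c * a ^ m ≤ a * a ^ m := by gcongr
    _ = a ^ (m + 1) := by ring
    _ ≤ a ^ n := pow_le_pow_right₀ (by linarith) h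

theorem num_aux {a j L q s D : ℝ} (ha : 1024 ≤ a) (hj0 : 0 ≤ j) (hj : j ≤ a) (hL1 : 1 ≤ L)
    (hL : L ≤ a) (hq1 : 1 ≤ q) (hq : q ≤ a) (hs : a ^ 500 ≤ s) (hD : a ^ 1000 ≤ D) :
    3 * (2 * L * q) ^ 2 / D +
      ((4 * L / (s * ((a ^ 21)⁻¹) ^ 2) + j * (4 * ((2 * L * q) / (a ^ 21)⁻¹) / s)) +
        8 * (q ^ 2 * (a ^ 21)⁻¹ + j * (((2 * L * q) / (a ^ 21)⁻¹) / s + q ^ 2 * (a ^ 21)⁻¹)) +
        4 * (j * ((2 * L * q) / s + q ^ 2 * (a ^ 21)⁻¹ * (2 * L * q) ^ 2)) + 8 / s) *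
        (2 * L * q) ^ 4 * (2 * L) / 3 ≤ 1 / (64 * L ^ 2 * q) ∧
    j * (2 * L * q) / s ≤ 1 / (4 * L) := by
  have ha0 : 0 < a := by linarith
  have hs0 : 0 < s := lt_of_lt_of_le (by positivity) hs
  have hD0 : 0 < D := lt_of_lt_of_le (by positivity) hD
  have hL0 : 0 < L := by linarith
  have hq0 : 0 < q := by linarith
  have hΛ : 2 * L * q ≤ 2 * a ^ 2 := by
    have : L * q ≤ a * a := mul_le_mul hL hq hq0.le ha0.le
    nlinarith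
  have hΛ0 : 0 < 2 * L * q := by positivity
  set Λ := 2 * L * q with hΛd
  clear_value Λ
  -- the five terms
  have e1 : 4 * L / (s * ((a ^ 21)⁻¹) ^ 2) = 4 * L * a ^ 42 / s := by
    field_simp
  have e2 : Λ / (a ^ 21)⁻¹ = Λ * a ^ 21 := by field_simp
  rw [e1, e2]
  have t1 : 4 * L * a ^ 42 / s ≤ 1 / (2 * a ^ 14) := by
    rw [div_le_div_iff₀ hs0 (by positivity)]
    calc 4 * L * a ^ 42 * (2 * a ^ 14) = 8 * L * a ^ 56 := by ring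
      _ ≤ 8 * a * a ^ 56 := by gcongr
      _ = 8 * a ^ 57 := by ring
      _ ≤ a ^ 500 := pw ha (by linarith) (by norm_num)
      _ ≤ 1 * s := by linarith
  have t2 : j * (4 * (Λ * a ^ 21) / s) ≤ 1 / (2 * a ^ 14) := by
    rw [← mul_div_assoc, div_le_div_iff₀ hs0 (by positivity)]
    calc j * (4 * (Λ * a ^ 21)) * (2 * a ^ 14) = 8 * (j * Λ) * a ^ 35 := by ring
      _ ≤ 8 * (a * (2 * a ^ 2)) * a ^ 35 := by gcongr
      _ = 16 * a ^ 38 := by ring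
      _ ≤ a ^ 500 := pw ha (by linarith) (by norm_num)
      _ ≤ 1 * s := by linarith
  have hN : q ^ 2 * (a ^ 21)⁻¹ ≤ 1 / a ^ 19 := by
    rw [← div_eq_mul_inv, div_le_div_iff₀ (by positivity) (by positivity)]
    calc q ^ 2 * a ^ 19 ≤ a ^ 2 * a ^ 19 := by gcongr
      _ = 1 * a ^ 21 := by ring
  have hN0 : 0 < q ^ 2 * (a ^ 21)⁻¹ := by positivity
  have t3 : q ^ 2 * (a ^ 21)⁻¹ + j * ((Λ * a ^ 21) / s + q ^ 2 * (a ^ 21)⁻¹) ≤ 1 / a ^ 14 := by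
    have u1 : j * ((Λ * a ^ 21) / s) ≤ 1 / (4 * a ^ 14) := by
      rw [← mul_div_assoc, div_le_div_iff₀ hs0 (by positivity)]
      calc j * (Λ * a ^ 21) * (4 * a ^ 14) = 4 * (j * Λ) * a ^ 35 := by ring
        _ ≤ 4 * (a * (2 * a ^ 2)) * a ^ 35 := by gcongr
        _ = 8 * a ^ 38 := by ring
        _ ≤ a ^ 500 := pw ha (by linarith) (by norm_num)
        _ ≤ 1 * s := by linarith
    have u2 : q ^ 2 * (a ^ 21)⁻¹ ≤ 1 / (4 * a ^ 14) := by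
      refine hN.trans ?_
      rw [div_le_div_iff₀ (by positivity) (by positivity)]
      calc 1 * (4 * a ^ 14) = 4 * a ^ 14 := by ring
        _ ≤ a ^ 19 := pw ha (by linarith) (by norm_num)
        _ = 1 * a ^ 19 := by ring
    have u3 : j * (q ^ 2 * (a ^ 21)⁻¹) ≤ 1 / (4 * a ^ 14) := by
      calc j * (q ^ 2 * (a ^ 21)⁻¹) ≤ a * (1 / a ^ 19) := by gcongr
        _ ≤ 1 / (4 * a ^ 14) := by
          rw [← mul_div_assoc, div_le_div_iff₀ (by positivity) (by positivity)]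
          calc a * 1 * (4 * a ^ 14) = 4 * a ^ 15 := by ring
            _ ≤ a ^ 19 := pw ha (by linarith) (by norm_num)
            _ = 1 * a ^ 19 := by ring
    have u4 : 1 / (4 * a ^ 14) + 1 / (4 * a ^ 14) + 1 / (4 * a ^ 14) ≤ 1 / a ^ 14 := by
      have : 1 / (4 * a ^ 14) = (1 / 4) * (1 / a ^ 14) := by field_simp
      rw [this]
      have h0 : 0 < 1 / a ^ 14 := by positivity
      linarith
    rw [mul_add]
    linarith
  have t4 : j * (Λ / s + q ^ 2 * (a ^ 21)⁻¹ * Λ ^ 2) ≤ 5 * (1 / a ^ 14) := by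
    have u1 : j * (Λ / s) ≤ 1 / a ^ 14 := by
      rw [← mul_div_assoc, div_le_div_iff₀ hs0 (by positivity)]
      calc j * Λ * a ^ 14 ≤ a * (2 * a ^ 2) * a ^ 14 := by gcongr
        _ = 2 * a ^ 17 := by ring
        _ ≤ a ^ 500 := pw ha (by linarith) (by norm_num)
        _ ≤ 1 * s := by linarith
    have u2 : j * (q ^ 2 * (a ^ 21)⁻¹ * Λ ^ 2) ≤ 4 * (1 / a ^ 14) := by
      calc j * (q ^ 2 * (a ^ 21)⁻¹ * Λ ^ 2) ≤ a * (1 / a ^ 19 * (2 * a ^ 2) ^ 2) := by gcongr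
        _ = 4 * (a ^ 5 / a ^ 19) := by ring
        _ = 4 * (1 / a ^ 14) := by
          congr 1
          rw [div_eq_div_iff (by positivity) (by positivity)]
          ring
    rw [mul_add]
    linarith
  have t5 : 8 / s ≤ 1 / a ^ 14 := by
    rw [div_le_div_iff₀ hs0 (by positivity)]
    calc 8 * a ^ 14 ≤ a ^ 500 := pw ha (by linarith) (by norm_num)
      _ ≤ 1 * s := by linarith
  have hhalf : 1 / (2 * a ^ 14) = (1 / 2) * (1 / a ^ 14) := by field_simp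
  have tot : (4 * L * a ^ 42 / s + j * (4 * (Λ * a ^ 21) / s)) +
      8 * (q ^ 2 * (a ^ 21)⁻¹ + j * ((Λ * a ^ 21) / s + q ^ 2 * (a ^ 21)⁻¹)) +
      4 * (j * (Λ / s + q ^ 2 * (a ^ 21)⁻¹ * Λ ^ 2)) + 8 / s ≤ 30 * (1 / a ^ 14) := by
    rw [hhalf] at t1 t2
    linarith
  have tot0 : 0 ≤ (4 * L * a ^ 42 / s + j * (4 * (Λ * a ^ 21) / s)) +
      8 * (q ^ 2 * (a ^ 21)⁻¹ + j * ((Λ * a ^ 21) / s + q ^ 2 * (a ^ 21)⁻¹)) +
      4 * (j * (Λ / s + q ^ 2 * (a ^ 21)⁻¹ * Λ ^ 2)) + 8 / s := by positivity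
  constructor
  · have v1 : 3 * Λ ^ 2 / D ≤ 1 / a ^ 5 := by
      rw [div_le_div_iff₀ hD0 (by positivity)]
      calc 3 * Λ ^ 2 * a ^ 5 ≤ 3 * (2 * a ^ 2) ^ 2 * a ^ 5 := by gcongr
        _ = 12 * a ^ 9 := by ring
        _ ≤ a ^ 1000 := pw ha (by linarith) (by norm_num)
        _ ≤ 1 * D := by linarith
    have v2 : ((4 * L * a ^ 42 / s + j * (4 * (Λ * a ^ 21) / s)) +
        8 * (q ^ 2 * (a ^ 21)⁻¹ + j * ((Λ * a ^ 21) / s + q ^ 2 * (a ^ 21)⁻¹)) +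
        4 * (j * (Λ / s + q ^ 2 * (a ^ 21)⁻¹ * Λ ^ 2)) + 8 / s) * Λ ^ 4 * (2 * L) / 3 ≤
        320 * (1 / a ^ 5) := by
      calc _ ≤ 30 * (1 / a ^ 14) * (2 * a ^ 2) ^ 4 * (2 * a) / 3 := by gcongr
        _ = 320 * (a ^ 9 / a ^ 14) := by ring
        _ = 320 * (1 / a ^ 5) := by
          congr 1
          rw [div_eq_div_iff (by positivity) (by positivity)]
          ring
    have v3 : 321 * (1 / a ^ 5) ≤ 1 / (64 * L ^ 2 * q) := by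
      have w1 : 1 / (64 * (a ^ 2) * a) ≤ 1 / (64 * L ^ 2 * q) := by gcongr
      refine le_trans ?_ w1
      rw [← mul_div_assoc, div_le_div_iff₀ (by positivity) (by positivity)]
      calc 321 * 1 * (64 * a ^ 2 * a) = 20544 * a ^ 3 := by ring
        _ ≤ (a * a) * a ^ 3 := by
          have : (20544 : ℝ) ≤ a * a := by nlinarith
          gcongr
        _ = 1 * a ^ 5 := by ring
    linarith
  · have w1 : 1 / (4 * a) ≤ 1 / (4 * L) := by gcongr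
    refine le_trans ?_ w1
    rw [div_le_div_iff₀ hs0 (by positivity)]
    calc j * Λ * (4 * a) ≤ a * (2 * a ^ 2) * (4 * a) := by gcongr
      _ = 8 * a ^ 4 := by ring
      _ ≤ a ^ 500 := pw ha (by linarith) (by norm_num)
      _ ≤ 1 * s := by linarith

/-- **numeric inequality of the assembly of CORE**: `Λ = 2 L₀ Q`, `N = Q ^ 2`,
`κ = 2 ^ (- 21 w)`. -/
theorem num (w j L₀ Q : ℕ) (D : ℝ) (hw : 10 ≤ w) (hj : j ≤ w) (hL1 : 1 ≤ L₀) (hL : L₀ ≤ 2 ^ w)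
    (hQ1 : 1 ≤ Q) (hQ : Q ≤ 2 ^ w) (hD : (2 : ℝ) ^ (1000 * w) ≤ D) (Λ κ : ℝ)
    (hΛ : Λ = 2 * L₀ * Q) (hκ : κ = ((2 : ℝ) ^ (21 * w))⁻¹) :
    3 * Λ ^ 2 / D +
      ((4 * L₀ / (√D * κ ^ 2) + j * (4 * (Λ / κ) / √D)) +
        8 * ((Q : ℝ) ^ 2 * κ + j * ((Λ / κ) / √D + (Q : ℝ) ^ 2 * κ)) +
        4 * (j * (Λ / √D + (Q : ℝ) ^ 2 * κ * Λ ^ 2)) + 8 / √D) *
        Λ ^ 4 * (2 * L₀) / 3 ≤ 1 / (64 * (L₀ : ℝ) ^ 2 * Q) ∧
    j * Λ / √D ≤ 1 / (4 * L₀) := by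
  have h1 : ((2 : ℝ) ^ w) ^ 21 = (2 : ℝ) ^ (21 * w) := by rw [← pow_mul]; ring_nf
  have h2 : ((2 : ℝ) ^ w) ^ 1000 = (2 : ℝ) ^ (1000 * w) := by rw [← pow_mul]; ring_nf
  have ha : (1024 : ℝ) ≤ 2 ^ w := by
    calc (1024 : ℝ) = 2 ^ 10 := by norm_num
      _ ≤ 2 ^ w := pow_le_pow_right₀ (by norm_num) hw
  have hja : (j : ℝ) ≤ 2 ^ w := by
    have : j ≤ 2 ^ w := hj.trans Nat.lt_two_pow_self.le
    exact_mod_cast this
  have hD' : ((2 : ℝ) ^ w) ^ 1000 ≤ D := by rw [h2]; exact hD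
  have hs : ((2 : ℝ) ^ w) ^ 500 ≤ √D := by
    refine Real.le_sqrt_of_sq_le ?_
    rw [← pow_mul]
    exact hD'
  have := num_aux (a := (2 : ℝ) ^ w) (j := j) (L := L₀) (q := Q) (s := √D) (D := D) ha
    (Nat.cast_nonneg _) hja (by exact_mod_cast hL1) (by exact_mod_cast hL)
    (by exact_mod_cast hQ1) (by exact_mod_cast hQ) hs hD'
  rw [h1, ← hκ, ← hΛ] at this
  exact this

end Vale.Agent.P319.S2.H92
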